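import Vale.Agent.P371E.Spec
import Vale.Agent.P371EL.Gr
import Vale.Agent.P371EL.Jd

/-!
Stability of the limit Riccati equation.
-/

set_option autoImplicit false

namespace P371EO

open MeasureTheory Filter Topology Matrix Set
open Vale.Agent.P371 Vale.Agent.P371.G Vale.Agent.P371.PI Vale.Agent.P371E Vale.Agent.P371EL
open scoped ComplexOrder MatrixOrder Matrix.Norms.L2Operator

theorem gS_der (ν k c x : ℝ) :
    HasDerivAt (gS ν k c) (-(1 / ν) * (k ^ 2 - gS ν k c x ^ 2)) x := by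
  have h1 : HasDerivAt (fun x : ℝ => k * (x - c)) k x := by
    simpa using ((hasDerivAt_id x).sub_const c).const_mul k
  have h2 := (((hasDerivAt_tn (1 / ν) (k * (x - c))).comp x h1).const_mul k).neg
  refine h2.congr_deriv ?_
  unfold gS
  rw [← one_sub_tn_sq]
  ring

theorem tri_der {ν k : ℝ} {g : ℝ → ℝ} (h : Tri ν k g) (x : ℝ) :
    HasDerivAt g (-(1 / ν) * (k ^ 2 - g x ^ 2)) x := by
  rcases h with rfl | rfl | ⟨-, c, rfl⟩
  · simpa using hasDerivAt_const x k
  · simpa using hasDerivAt_const x (-k)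
  · exact gS_der ν k c x

theorem tri_abs {ν k : ℝ} {g : ℝ → ℝ} (hk : 0 ≤ k) (h : Tri ν k g) (x : ℝ) : |g x| ≤ k := by
  rcases h with rfl | rfl | ⟨-, c, rfl⟩
  · exact (abs_of_nonneg hk).le
  · rw [abs_neg]
    exact (abs_of_nonneg hk).le
  · unfold gS
    rw [abs_neg, abs_mul, abs_of_nonneg hk]
    exact mul_le_of_le_one_right hk (abs_tn_le _ _)

theorem tri_ex {ν k b : ℝ} (hν : 0 < ν) (h1 : 0 ≤ k - b) (h2 : 0 ≤ k + b) (x : ℝ) :
    ∃ g, Tri ν k g ∧ g x = b := by
  rcases eq_or_lt_of_le h1 with e1 | e1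
  · exact ⟨_, Or.inl rfl, by linarith⟩
  rcases eq_or_lt_of_le h2 with e2 | e2
  · exact ⟨_, Or.inr (Or.inl rfl), by linarith⟩
  have hk : 0 < k := by linarith
  have hm : -b / k ∈ Ioo (-1 : ℝ) 1 := by
    constructor
    · rw [lt_div_iff₀ hk]
      linarith
    · rw [div_lt_iff₀ hk]
      linarith
  refine ⟨_, Or.inr (Or.inr ⟨hk, x - ν * Real.artanh (-b / k) / k, rfl⟩), ?_⟩
  unfold gS tn
  have e : 1 / ν * (k * (x - (x - ν * Real.artanh (-b / k) / k))) = Real.artanh (-b / k) := by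
    field_simp
    ring
  rw [e, ← Real.tanh_eq_sinh_div_cosh, Real.tanh_artanh hm]
  field_simp

variable {N : ℕ}

theorem dg_mul (a b : Fin N → ℝ) : dg a * dg b = dg fun i => a i * b i := by
  unfold dg
  rw [diagonal_mul_diagonal]
  simp

theorem dg_sub (a b : Fin N → ℝ) : dg a - dg b = dg fun i => a i - b i := by
  unfold dg
  rw [diagonal_sub]
  simp

theorem dg_add (a b : Fin N → ℝ) : dg a + dg b = dg fun i => a i + b i := by
  unfold dg
  rw [diagonal_add]
  simp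

theorem dg_smul (c : ℝ) (a : Fin N → ℝ) : c • dg a = dg fun i => c * a i := by
  unfold dg
  ext i j
  by_cases h : i = j
  · subst h
    simp
  · simp [h]

theorem cj_mul {U : Mat N N} (hU : Uᴴ * U = 1) (a b : Fin N → ℝ) :
    U * dg a * Uᴴ * (U * dg b * Uᴴ) = U * dg (fun i => a i * b i) * Uᴴ := by
  rw [← dg_mul]
  calc U * dg a * Uᴴ * (U * dg b * Uᴴ) = U * dg a * (Uᴴ * U) * dg b * Uᴴ := by
        simp only [Matrix.mul_assoc]
    _ = _ := by rw [hU]; simp only [Matrix.mul_assoc, Matrix.mul_one]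

theorem cj_pos {U : Mat N N} (hU : Uᴴ * U = 1) {a : Fin N → ℝ} :
    (U * dg a * Uᴴ).PosSemidef ↔ ∀ i, 0 ≤ a i := by
  constructor
  · intro h i
    have h1 := h.conjTranspose_mul_mul_same U
    have e : Uᴴ * (U * dg a * Uᴴ) * U = dg a := by
      calc Uᴴ * (U * dg a * Uᴴ) * U = (Uᴴ * U) * dg a * (Uᴴ * U) := by simp only [Matrix.mul_assoc]
        _ = dg a := by rw [hU, Matrix.one_mul, Matrix.mul_one]
    rw [e, dg, posSemidef_diagonal_iff] at h1
    exact_mod_cast h1 i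
  · intro h
    refine PosSemidef.mul_mul_conjTranspose_same ?_ U
    rw [dg, posSemidef_diagonal_iff]
    intro i
    exact_mod_cast h i

theorem cj_der (U : Mat N N) {g : Fin N → ℝ → ℝ} {d : Fin N → ℝ} {x : ℝ}
    (h : ∀ i, HasDerivAt (g i) (d i) x) :
    HasDerivAt (fun y => U * dg (fun i => g i y) * Uᴴ) (U * dg d * Uᴴ) x := by
  let L : (Fin N → ℝ) →ₗ[ℝ] Mat N N :=
    { toFun := fun a => U * dg a * Uᴴ
      map_add' := fun a b => by
        rw [← Matrix.add_mul, ← Matrix.mul_add, dg_add]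
        rfl
      map_smul' := fun c a => by
        rw [RingHom.id_apply, ← Matrix.smul_mul, ← Matrix.mul_smul, dg_smul]
        rfl }
  exact (LinearMap.toContinuousLinearMap L).hasFDerivAt.comp_hasDerivAt x (hasDerivAt_pi.2 h)

theorem sand {K F : Mat N N} (h1 : (K - F).PosSemidef) (h2 : (K + F).PosSemidef)
    (hK : K.PosSemidef) : F.IsHermitian ∧ ‖F‖ ≤ ‖K‖ := by
  have hF : F.IsHermitian := by
    have := h2.1.sub hK.1
    rwa [add_sub_cancel_left] at this
  exact ⟨hF, norm_le_of_sandwich hK.nonneg hF h2.nonneg h1.nonneg⟩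

theorem psd_lim {A : ℕ → Mat N N} {A0 : Mat N N} (h : Tendsto A atTop (𝓝 A0))
    (hA : ∀ᶠ n in atTop, (A n).PosSemidef) : A0.PosSemidef := by
  rw [← Matrix.nonneg_iff_posSemidef]
  exact CStarAlgebra.isClosed_nonneg.mem_of_tendsto h (hA.mono fun n hn => hn.nonneg)

theorem comm_sq {K F : Mat N N} (hK : K.PosSemidef) (h : K * K * F = F * (K * K)) :
    K * F = F * K := by
  have h1 : Commute (K * K) F := h
  have h2 := h1.cfc_nnreal NNReal.sqrt
  rw [← CFC.sqrt_eq_cfc, CFC.sqrt_mul_self K hK.nonneg] at h2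
  exact h2

theorem eta_cont {K : Mat N N} {F Z : ℝ → Mat N N} {s : Set ℝ} (hF : ContinuousOn F s)
    (hZ : ContinuousOn Z s) : ContinuousOn (fun x => eta K (F x) (Z x)) s := by
  unfold eta
  exact (hZ.sub (continuousOn_const.sub (hF.mul hF))).norm.add
    ((continuousOn_const.mul hF).sub (hF.mul continuousOn_const)).norm

theorem eta_nonneg (K F Z : Mat N N) : 0 ≤ eta K F Z := add_nonneg (norm_nonneg _) (norm_nonneg _)

theorem th_cont (ν : ℝ) {Q : ℝ → Mat N N} (hQ : Continuous Q) : Continuous fun x => th ν (Q x) :=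
  hQ.const_smul ((ν / (1 + ν) : ℝ) : ℂ)

/-- The Gronwall step. -/
theorem step {ν B R ρ σ : ℝ} (hν : 0 < ν) (hR : 0 ≤ R) (hρ : R ≤ ρ) {K K0 : Mat N N}
    {F Q G : ℝ → Mat N N} (hQ : Continuous Q)
    (hF : ∀ x ∈ Icc (-ρ) ρ, HasDerivAt F (K * K - F x * F x - Q x) x)
    (hFB : ∀ x ∈ Icc (-ρ) ρ, ‖F x‖ ≤ B)
    (hG : ∀ x, HasDerivAt G ((-(1 / ν)) • (K0 * K0 - G x * G x)) x) (hGB : ∀ x, ‖G x‖ ≤ B)
    (hσ : ∫ x in (-ρ)..ρ, eta K (F x) (th ν (Q x)) ≤ σ) {x0 x : ℝ} (h0 : x0 ∈ Icc (-R) R)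
    (hx : x ∈ Icc (-R) R) :
    ‖F x - G x‖ ≤ (‖F x0 - G x0‖ + (2 * B / ν * ((1 + ν) / ν * σ) + ‖K * K - K0 * K0‖ / ν) *
      (R - -R)) * Real.exp (2 * B / ν * (R - -R)) + (1 + ν) / ν * σ := by
  have hB : 0 ≤ B := (norm_nonneg _).trans (hGB 0)
  have hsub : Icc (-R) R ⊆ Icc (-ρ) ρ := Icc_subset_Icc (by linarith) hρ
  have hFc : ContinuousOn F (Icc (-ρ) ρ) := fun y hy => (hF y hy).continuousAt.continuousWithinAt
  set e : ℝ → Mat N N := fun y => (-((1 + ν) / ν)) • (th ν (Q y) - (K * K - F y * F y)) with he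
  set w : ℝ → Mat N N := fun y => (-(1 / ν)) • ((K * K - K0 * K0) - (F y * F y - G y * G y))
    with hw
  have hec : ContinuousOn e (Icc (-R) R) :=
    (((th_cont ν hQ).continuousOn.sub (continuousOn_const.sub (hFc.mul hFc))).mono
      hsub).const_smul (-((1 + ν) / ν))
  have hL : 0 ≤ 2 * B / ν := by positivity
  have key := gr_int (v := fun y => F y - G y) (w := w) (e := e) (a := -R) (b := R)
    (L := 2 * B / ν) (c := ‖K * K - K0 * K0‖ / ν) hL (by positivity) (fun y hy => ?_) hec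
    (fun y hy => ?_) h0 hx
  · have hec' : ContinuousOn (fun y => eta K (F y) (th ν (Q y))) (Icc (-ρ) ρ) :=
      eta_cont hFc (th_cont ν hQ).continuousOn
    have h1 : ∫ y in (-R)..R, ‖e y‖ ≤ (1 + ν) / ν * σ := by
      have h2 : ∫ y in (-R)..R, ‖e y‖ ≤
          ∫ y in (-R)..R, (1 + ν) / ν * eta K (F y) (th ν (Q y)) := by
        refine intervalIntegral.integral_mono_on (by linarith) ?_ ?_ fun y _ => ?_
        · exact (hec.norm.mono (by rw [uIcc_of_le (by linarith)])).intervalIntegrable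
        · exact ((continuousOn_const.mul (hec'.mono hsub)).mono
            (by rw [uIcc_of_le (by linarith)])).intervalIntegrable
        · rw [he]
          simp only
          rw [norm_smul, norm_neg, Real.norm_of_nonneg (by positivity)]
          exact mul_le_mul_of_nonneg_left (le_add_of_nonneg_right (norm_nonneg _)) (by positivity)
      rw [intervalIntegral.integral_const_mul] at h2
      refine h2.trans (mul_le_mul_of_nonneg_left (le_trans ?_ hσ) (by positivity))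
      exact intervalIntegral.integral_mono_interval (by linarith) (by linarith) hρ
        (ae_of_all _ fun y => eta_nonneg _ _ _)
        (hec'.mono (by rw [uIcc_of_le (by linarith)])).intervalIntegrable
    refine key.trans ?_
    have h3 : 0 ≤ R - -R := by linarith
    gcongr
  · refine ((hF y (hsub hy)).sub (hG y)).hasDerivWithinAt.congr_deriv ?_
    have e1 : th ν (Q y) = (ν / (1 + ν)) • Q y := by
      unfold th
      rw [Complex.coe_smul]
    have e2 : Q y = ((1 + ν) / ν) • th ν (Q y) := by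
      rw [e1, smul_smul]
      have : (1 + ν) / ν * (ν / (1 + ν)) = 1 := by field_simp
      rw [this, one_smul]
    have e3 : (1 + ν) / ν = 1 + 1 / ν := by field_simp; ring
    rw [hw, he]
    simp only
    conv_lhs => rw [e2]
    rw [e3]
    module
  · rw [hw]
    simp only
    rw [norm_smul, norm_neg, Real.norm_of_nonneg (by positivity)]
    have e1 : F y * F y - G y * G y = F y * (F y - G y) + (F y - G y) * G y := by noncomm_ring
    have h1 : ‖F y * F y - G y * G y‖ ≤ 2 * B * ‖F y - G y‖ := by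
      rw [e1]
      refine (norm_add_le _ _).trans ?_
      have h2 := (norm_mul_le (F y) (F y - G y)).trans
        (mul_le_mul_of_nonneg_right (hFB y (hsub hy)) (norm_nonneg _))
      have h3 := (norm_mul_le (F y - G y) (G y)).trans
        (mul_le_mul_of_nonneg_left (hGB y) (norm_nonneg _))
      linarith
    have h4 := (norm_sub_le (K * K - K0 * K0) (F y * F y - G y * G y)).trans (add_le_add le_rfl h1)
    refine (mul_le_mul_of_nonneg_left h4 (by positivity)).trans (le_of_eq ?_)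
    ring

theorem pt_ex {h : ℝ → ℝ} {ρ σ : ℝ} (hρ : 1 ≤ ρ) (hc : ContinuousOn h (Icc (-ρ) ρ))
    (h0 : ∀ x, 0 ≤ h x) (hσ : ∫ x in (-ρ)..ρ, h x ≤ σ) : ∃ x ∈ Icc (0 : ℝ) 1, h x ≤ σ := by
  have hsub : Icc (0 : ℝ) 1 ⊆ Icc (-ρ) ρ := Icc_subset_Icc (by linarith) hρ
  obtain ⟨x, hx, hmin⟩ := isCompact_Icc.exists_isMinOn (nonempty_Icc.2 zero_le_one) (hc.mono hsub)
  refine ⟨x, hx, ?_⟩
  have h1 : ∫ _ in (0 : ℝ)..1, h x ≤ ∫ y in (0 : ℝ)..1, h y :=
    intervalIntegral.integral_mono_on zero_le_one intervalIntegrable_const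
      ((hc.mono hsub).mono (by rw [uIcc_of_le zero_le_one])).intervalIntegrable
      fun y hy => hmin hy
  have h2 : ∫ y in (0 : ℝ)..1, h y ≤ ∫ y in (-ρ)..ρ, h y :=
    intervalIntegral.integral_mono_interval (by linarith) zero_le_one hρ (ae_of_all _ h0)
      (hc.mono (by rw [uIcc_of_le (by linarith)])).intervalIntegrable
  simp only [intervalIntegral.integral_const, sub_zero, one_smul] at h1
  linarith

theorem ode : ODE := by
  intro ν B N K F Q ρ σ hν hρ hσ hK hKB hQ hF hS hI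
  have hFc : ∀ n, ContinuousOn (F n) (Icc (-ρ n) (ρ n)) :=
    fun n y hy => (hF n y hy).continuousAt.continuousWithinAt
  have hFB : ∀ n, ∀ x ∈ Icc (-ρ n) (ρ n), ‖F n x‖ ≤ B := fun n x hx =>
    (sand (hS n x hx).1 (hS n x hx).2 (hK n)).2.trans (hKB n)
  have hpt : ∀ n, ∃ x ∈ Icc (0 : ℝ) 1, 1 ≤ ρ n → eta (K n) (F n x) (th ν (Q n x)) ≤ σ n := by
    intro n
    by_cases h : 1 ≤ ρ n
    · obtain ⟨x, hx, h1⟩ := pt_ex h (eta_cont (hFc n) (th_cont ν (hQ n)).continuousOn)
        (fun x => eta_nonneg _ _ _) (hI n)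
      exact ⟨x, hx, fun _ => h1⟩
    · exact ⟨0, ⟨le_rfl, zero_le_one⟩, fun h' => absurd h' h⟩
  choose x hx01 hx using hpt
  have hρ1 : ∀ᶠ n in atTop, 1 ≤ ρ n := hρ.eventually_ge_atTop 1
  have hxm : ∀ n, 1 ≤ ρ n → x n ∈ Icc (-ρ n) (ρ n) := fun n h =>
    ⟨by linarith [(hx01 n).1], (hx01 n).2.trans h⟩
  have hcp : IsCompact (Metric.closedBall (0 : Mat N N) B ×ˢ Metric.closedBall (0 : Mat N N) B ×ˢ
      Icc (0 : ℝ) 1) :=
    (isCompact_closedBall _ _).prod ((isCompact_closedBall _ _).prod isCompact_Icc)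
  obtain ⟨⟨K0, F0, x0⟩, hmem, φ, hφ, hlim⟩ := hcp.tendsto_subseq'
    (x := fun n => (K n, F n (x n), x n)) (hρ1.mono fun n hn =>
      ⟨mem_closedBall_zero_iff.2 (hKB n), mem_closedBall_zero_iff.2 (hFB n _ (hxm n hn)),
        hx01 n⟩).frequently
  have hφ' : Tendsto φ atTop atTop := hφ.tendsto_atTop
  have lK : Tendsto (fun n => K (φ n)) atTop (𝓝 K0) := (continuous_fst.tendsto _).comp hlim
  have lF : Tendsto (fun n => F (φ n) (x (φ n))) atTop (𝓝 F0) :=
    (continuous_snd.fst.tendsto _).comp hlim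
  have lx : Tendsto (fun n => x (φ n)) atTop (𝓝 x0) := (continuous_snd.snd.tendsto _).comp hlim
  have lσ : Tendsto (fun n => σ (φ n)) atTop (𝓝 0) := hσ.comp hφ'
  have hρ2 : ∀ᶠ n in atTop, 1 ≤ ρ (φ n) := hφ'.eventually hρ1
  have hK0 : K0.PosSemidef := psd_lim lK (Eventually.of_forall fun n => hK _)
  have hm : (K0 - F0).PosSemidef := psd_lim (lK.sub lF) (hρ2.mono fun n hn => (hS _ _ (hxm _ hn)).1)
  have hp : (K0 + F0).PosSemidef := psd_lim (lK.add lF) (hρ2.mono fun n hn => (hS _ _ (hxm _ hn)).2)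
  have hc : K0 * K0 * F0 = F0 * (K0 * K0) := by
    have h1 := (((lK.mul lK).mul lF).sub (lF.mul (lK.mul lK))).norm
    have h2 : ‖K0 * K0 * F0 - F0 * (K0 * K0)‖ ≤ 0 :=
      le_of_tendsto_of_tendsto h1 lσ (hρ2.mono fun n hn =>
        (le_add_of_nonneg_left (norm_nonneg _)).trans (hx _ hn))
    exact sub_eq_zero.1 (norm_le_zero_iff.1 h2)
  obtain ⟨U, k, b, hU, -, eK, eF⟩ := joint_diag K0 F0 hK0.1 (sand hm hp hK0).1 (comm_sq hK0 hc)
  have eK' : K0 = U * dg k * Uᴴ := eK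
  have eF' : F0 = U * dg b * Uᴴ := eF
  have hk : ∀ i, 0 ≤ k i := (cj_pos hU).1 (eK' ▸ hK0)
  have hkm : ∀ i, 0 ≤ k i - b i := by
    refine (cj_pos hU).1 ?_
    rw [← dg_sub, Matrix.mul_sub, Matrix.sub_mul, ← eK', ← eF']
    exact hm
  have hkp : ∀ i, 0 ≤ k i + b i := by
    refine (cj_pos hU).1 ?_
    rw [← dg_add, Matrix.mul_add, Matrix.add_mul, ← eK', ← eF']
    exact hp
  choose g hg hgx using fun i => tri_ex hν (hkm i) (hkp i) x0
  set G : ℝ → Mat N N := fun y => U * dg (fun i => g i y) * Uᴴ with hGd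
  have hG : ∀ y, HasDerivAt G ((-(1 / ν)) • (K0 * K0 - G y * G y)) y := by
    intro y
    refine (cj_der U fun i => tri_der (hg i) y).congr_deriv ?_
    rw [hGd, eK']
    simp only
    rw [cj_mul hU, cj_mul hU, ← Matrix.sub_mul, ← Matrix.mul_sub, dg_sub, ← Matrix.smul_mul,
      ← Matrix.mul_smul, dg_smul]
    simp only [sq]
  have hGB : ∀ y, ‖G y‖ ≤ B := by
    intro y
    refine le_trans (sand (K := K0) ?_ ?_ hK0).2 (mem_closedBall_zero_iff.1 hmem.1)
    · rw [hGd, eK']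
      simp only
      rw [← Matrix.sub_mul, ← Matrix.mul_sub, dg_sub, cj_pos hU]
      exact fun i => sub_nonneg.2 (abs_le.1 (tri_abs (hk i) (hg i) y)).2
    · rw [hGd, eK']
      simp only
      rw [← Matrix.add_mul, ← Matrix.mul_add, dg_add, cj_pos hU]
      exact fun i => by linarith [(abs_le.1 (tri_abs (hk i) (hg i) y)).1]
  have hGx : G x0 = F0 := by
    rw [hGd, eF']
    simp only [hgx]
  refine ⟨φ, U, k, g, hφ, hU, hk, hg, eK' ▸ lK, fun R => ?_⟩
  set R' := max R 1 with hR'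
  have hR1 : 1 ≤ R' := le_max_right _ _
  refine TendstoUniformlyOn.mono (s := Icc (-R') R') ?_
    (Icc_subset_Icc (neg_le_neg (le_max_left _ _)) (le_max_left _ _))
  have l1 : Tendsto (fun n => ‖F (φ n) (x (φ n)) - G (x (φ n))‖) atTop (𝓝 0) := by
    have h1 := (lF.sub (((hG x0).continuousAt.tendsto).comp lx)).norm
    rwa [hGx, sub_self, norm_zero] at h1
  have l2 : Tendsto (fun n => ‖K (φ n) * K (φ n) - K0 * K0‖) atTop (𝓝 0) := by
    have h1 := ((lK.mul lK).sub_const (K0 * K0)).norm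
    rwa [sub_self, norm_zero] at h1
  have l3 := ((l1.add ((((lσ.const_mul ((1 + ν) / ν)).const_mul (2 * B / ν)).add
    (l2.div_const ν)).mul_const (R' - -R'))).mul_const (Real.exp (2 * B / ν * (R' - -R')))).add
    (lσ.const_mul ((1 + ν) / ν))
  simp only [mul_zero, zero_div, add_zero, zero_mul] at l3
  rw [Metric.tendstoUniformlyOn_iff]
  intro ε hε
  filter_upwards [l3.eventually (gt_mem_nhds hε), (hρ.comp hφ').eventually_ge_atTop R']
    with n h1 h2 y hy
  rw [dist_comm, dist_eq_norm]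
  refine lt_of_le_of_lt ?_ h1
  exact step hν (by linarith) h2 (hQ _) (hF _) (hFB _) hG hGB (hI _)
    ⟨by linarith [(hx01 (φ n)).1], (hx01 (φ n)).2.trans hR1⟩ hy

end P371EO
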